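import Mathlib

/-!
# Mertens' theorems

* `mertens1_vonMangoldt`, `mertens1` : first theorem, for `Λ` and for primes;
* `mertens2_const` : sum of `1/p` is `log log x + M + O(1/log x)`;
* `mertens2` : the same with error `O(1)`;
* `mertens3` : two-sided bound for the product of `1 - 1/p`.
-/

open Finset Real Filter Topology MeasureTheory
open ArithmeticFunction hiding log

namespace Vale.Agent.Lib.NT

theorem sum_log_eq_log_factorial (N : ℕ) :
    ∑ n ∈ Ioc 0 N, Real.log n = Real.log (N.factorial : ℕ) := by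
  induction N with
  | zero => simp
  | succ N ih =>
    rw [Finset.sum_Ioc_succ_top (Nat.zero_le N), ih, Nat.factorial_succ, Nat.cast_mul,
      Real.log_mul (by positivity) (by positivity), add_comm]

theorem log_factorial_bounds (N : ℕ) :
    N * Real.log N - N ≤ Real.log (N.factorial : ℕ) ∧
      Real.log (N.factorial : ℕ) ≤ N * Real.log N := by
  rcases Nat.eq_zero_or_pos N with rfl | hN
  · simp
  have hN' : (0 : ℝ) < N := by exact_mod_cast hN
  have hf : (0 : ℝ) < (N.factorial : ℕ) := by exact_mod_cast N.factorial_pos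
  constructor
  · have h := Real.pow_div_factorial_le_exp (N : ℝ) hN'.le N
    have h2 := Real.log_le_log (by positivity) h
    rw [Real.log_div (by positivity) hf.ne', Real.log_pow, Real.log_exp] at h2
    linarith
  · rw [← Real.log_pow]
    apply Real.log_le_log hf
    exact_mod_cast N.factorial_le_pow

theorem sum_vonMangoldt_mul_div (N : ℕ) :
    ∑ n ∈ Ioc 0 N, Λ n * ((N / n : ℕ) : ℝ) = Real.log (N.factorial : ℕ) := by
  rw [← sum_Ioc_mul_zeta_eq_sum, vonMangoldt_mul_zeta, ← sum_log_eq_log_factorial]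
  simp [ArithmeticFunction.log_apply]

theorem mertens1_nat (N : ℕ) (hN : 0 < N) :
    Real.log N - 1 ≤ ∑ n ∈ Ioc 0 N, Λ n / n ∧ ∑ n ∈ Ioc 0 N, Λ n / n ≤ Real.log N + 6 := by
  have hN' : (0 : ℝ) < N := by exact_mod_cast hN
  have h1 := sum_vonMangoldt_mul_div N
  obtain ⟨h2, h3⟩ := log_factorial_bounds N
  have h4 : ∑ n ∈ Ioc 0 N, Λ n * ((N / n : ℕ) : ℝ) ≤ N * ∑ n ∈ Ioc 0 N, Λ n / n := by
    rw [Finset.mul_sum]
    apply Finset.sum_le_sum
    intro n _
    have := @Nat.cast_div_le ℝ _ _ _ N n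
    calc Λ n * ((N / n : ℕ) : ℝ) ≤ Λ n * ((N : ℝ) / n) :=
          mul_le_mul_of_nonneg_left this vonMangoldt_nonneg
      _ = N * (Λ n / n) := by ring
  have h5 : N * ∑ n ∈ Ioc 0 N, Λ n / n ≤
      ∑ n ∈ Ioc 0 N, Λ n * ((N / n : ℕ) : ℝ) + ∑ n ∈ Ioc 0 N, Λ n := by
    rw [Finset.mul_sum, ← Finset.sum_add_distrib]
    apply Finset.sum_le_sum
    intro n hn
    have hn0 : 0 < n := (Finset.mem_Ioc.1 hn).1
    have hn' : (0 : ℝ) < n := by exact_mod_cast hn0
    have h6 : (N : ℝ) / n ≤ ((N / n : ℕ) : ℝ) + 1 := by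
      rw [div_le_iff₀ hn']
      have := Nat.lt_div_mul_add (a := N) hn0
      have h7 : (N : ℝ) < ((N / n : ℕ) : ℝ) * n + n := by exact_mod_cast this
      linarith
    calc N * (Λ n / n) = Λ n * ((N : ℝ) / n) := by ring
      _ ≤ Λ n * (((N / n : ℕ) : ℝ) + 1) := mul_le_mul_of_nonneg_left h6 vonMangoldt_nonneg
      _ = _ := by ring
  have h6 : ∑ n ∈ Ioc 0 N, Λ n ≤ 6 * N := by
    have h7 := Chebyshev.psi_le_const_mul_self hN'.le
    rw [Chebyshev.psi, Nat.floor_natCast] at h7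
    have h8 : Real.log 4 ≤ 2 := by
      have : Real.log 4 = 2 * Real.log 2 := by
        rw [show (4 : ℝ) = 2 ^ 2 by norm_num, Real.log_pow]; norm_num
      have := Real.log_two_lt_d9
      linarith
    nlinarith
  constructor
  · by_contra hc
    push Not at hc
    have := mul_lt_mul_of_pos_left hc hN'
    nlinarith
  · by_contra hc
    push Not at hc
    have := mul_lt_mul_of_pos_left hc hN'
    nlinarith

/-- Mertens' first theorem for the von Mangoldt function. -/
theorem mertens1_vonMangoldt {x : ℝ} (hx : 1 ≤ x) :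
    |∑ n ∈ Ioc 0 ⌊x⌋₊, Λ n / n - Real.log x| ≤ 6 := by
  have h0 : 0 < ⌊x⌋₊ := Nat.floor_pos.2 hx
  obtain ⟨h1, h2⟩ := mertens1_nat _ h0
  have h0' : (1 : ℝ) ≤ ⌊x⌋₊ := by exact_mod_cast h0
  have h3 : Real.log ⌊x⌋₊ ≤ Real.log x :=
    Real.log_le_log (by linarith) (Nat.floor_le (by linarith))
  have h4 : Real.log x ≤ Real.log ⌊x⌋₊ + 1 := by
    have h5 : x ≤ 2 * ⌊x⌋₊ := by have := Nat.lt_floor_add_one x; linarith
    have h6 := Real.log_le_log (by linarith) h5
    rw [Real.log_mul (by norm_num) (by linarith)] at h6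
    have := Real.log_two_lt_d9
    linarith
  rw [abs_le]
  constructor <;> linarith

theorem summable_nonprime :
    Summable fun n : ℕ => (if n.Prime then 0 else Λ n) / (n : ℝ) := by
  have h := ArithmeticFunction.vonMangoldt.summable_residueClass_non_primes_div (q := 1) 0
  refine h.congr fun n => ?_
  have : ((n : ZMod 1) = 0) := Subsingleton.elim _ _
  simp [ArithmeticFunction.vonMangoldt.residueClass, this]

theorem filter_Icc_eq (N : ℕ) :
    (Icc 1 N).filter Nat.Prime = (Ioc 0 N).filter Nat.Prime := by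
  congr 1

/-- Mertens' first theorem. -/
theorem mertens1 : ∃ C : ℝ, 0 ≤ C ∧ ∀ x : ℝ, 1 ≤ x →
    |∑ p ∈ (Icc 1 ⌊x⌋₊).filter Nat.Prime, Real.log p / p - Real.log x| ≤ C := by
  have hnn : ∀ n : ℕ, 0 ≤ (if n.Prime then 0 else Λ n) / (n : ℝ) := by
    intro n
    apply div_nonneg _ (Nat.cast_nonneg _)
    split_ifs
    · exact le_rfl
    · exact vonMangoldt_nonneg
  refine ⟨6 + ∑' n : ℕ, (if n.Prime then 0 else Λ n) / (n : ℝ),
    add_nonneg (by norm_num) (tsum_nonneg hnn), fun x hx => ?_⟩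
  have h1 := mertens1_vonMangoldt hx
  have h2 : ∑ n ∈ Ioc 0 ⌊x⌋₊, Λ n / n =
      ∑ p ∈ (Icc 1 ⌊x⌋₊).filter Nat.Prime, Real.log p / p +
        ∑ n ∈ Ioc 0 ⌊x⌋₊, (if n.Prime then 0 else Λ n) / (n : ℝ) := by
    rw [filter_Icc_eq, Finset.sum_filter, ← Finset.sum_add_distrib]
    apply Finset.sum_congr rfl
    intro n _
    split_ifs with h
    · simp [vonMangoldt_apply_prime h]
    · simp
  have h3 := summable_nonprime.sum_le_tsum (Ioc 0 ⌊x⌋₊) (fun n _ => hnn n)
  have h4 : 0 ≤ ∑ n ∈ Ioc 0 ⌊x⌋₊, (if n.Prime then 0 else Λ n) / (n : ℝ) :=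
    Finset.sum_nonneg fun n _ => hnn n
  rw [abs_le] at h1 ⊢
  constructor <;> linarith [h1.1, h1.2]

/-- The partial sum in the first theorem. -/
noncomputable def mA (t : ℝ) : ℝ := ∑ p ∈ (Icc 1 ⌊t⌋₊).filter Nat.Prime, Real.log p / p

theorem mA_eq (t : ℝ) :
    mA t = ∑ k ∈ Icc 0 ⌊t⌋₊, (if k.Prime then Real.log k / k else 0) := by
  rw [mA, ← Finset.sum_filter]
  apply Finset.sum_congr _ (fun _ _ => rfl)
  ext k
  simp only [Finset.mem_filter, Finset.mem_Icc]
  constructor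
  · rintro ⟨⟨_, h2⟩, h3⟩; exact ⟨⟨Nat.zero_le _, h2⟩, h3⟩
  · rintro ⟨⟨_, h2⟩, h3⟩; exact ⟨⟨h3.one_le, h2⟩, h3⟩

theorem continuousOn_inv_mul_log_sq (s : Set ℝ) (hs : ∀ t ∈ s, 2 ≤ t) :
    ContinuousOn (fun t : ℝ => 1 / (t * Real.log t ^ 2)) s := by
  intro z hz
  have h2 := hs z hz
  have : z ≠ 0 := by linarith
  have : Real.log z ≠ 0 := by apply Real.log_ne_zero_of_pos_of_ne_one <;> linarith
  have : z * Real.log z ^ 2 ≠ 0 := by positivity
  exact ContinuousAt.continuousWithinAt (by fun_prop (disch := assumption))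

theorem sum_inv_prime_eq {x : ℝ} (_hx : 2 ≤ x) :
    ∑ p ∈ (Icc 1 ⌊x⌋₊).filter Nat.Prime, (1 / (p : ℝ)) =
      mA x / Real.log x + ∫ t in Set.Ioc 2 x, 1 / (t * Real.log t ^ 2) * mA t := by
  let c : ℕ → ℝ := fun k => if k.Prime then Real.log k / k else 0
  have h1 : ∑ p ∈ (Icc 1 ⌊x⌋₊).filter Nat.Prime, (1 / (p : ℝ)) =
      ∑ k ∈ Icc 0 ⌊x⌋₊, (Real.log k)⁻¹ * c k := by
    have : (Icc 1 ⌊x⌋₊).filter Nat.Prime = (Icc 0 ⌊x⌋₊).filter Nat.Prime := by
      ext k
      simp only [Finset.mem_filter, Finset.mem_Icc]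
      constructor
      · rintro ⟨⟨_, h2⟩, h3⟩; exact ⟨⟨Nat.zero_le _, h2⟩, h3⟩
      · rintro ⟨⟨_, h2⟩, h3⟩; exact ⟨⟨h3.one_le, h2⟩, h3⟩
    rw [this, Finset.sum_filter]
    apply Finset.sum_congr rfl
    intro k _
    by_cases h : k.Prime
    · have : Real.log k ≠ 0 :=
        Real.log_ne_zero_of_pos_of_ne_one (by exact_mod_cast h.pos) (by exact_mod_cast h.ne_one)
      simp only [c, h, if_true]
      field_simp
    · simp [c, h]
  rw [h1, sum_mul_eq_sub_integral_mul₁ c (f := fun t => (Real.log t)⁻¹)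
    (by simp [c, Nat.not_prime_zero]) (by simp [c, Nat.not_prime_one])]
  · rw [← mA_eq, sub_eq_add_neg, ← integral_neg]
    congr 1
    · ring
    · apply integral_congr_ae
      filter_upwards with t
      rw [← mA_eq, Real.deriv_inv_log_apply]
      ring
  · intro z hz
    have := hz.1
    have : z ≠ 0 := by linarith
    have : Real.log z ≠ 0 := by apply Real.log_ne_zero_of_pos_of_ne_one <;> linarith [hz.1]
    fun_prop (disch := assumption)
  · have : deriv (fun t : ℝ => (Real.log t)⁻¹) = fun t => -(1 / (t * Real.log t ^ 2)) := by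
      ext t
      rw [Real.deriv_inv_log_apply]
      ring
    rw [this]
    exact (continuousOn_inv_mul_log_sq _ (fun t ht => ht.1)).neg.integrableOn_Icc

theorem hasDerivAt_neg_inv_log {t : ℝ} (ht : 2 ≤ t) :
    HasDerivAt (fun t => -(Real.log t)⁻¹) (1 / (t * Real.log t ^ 2)) t := by
  have h0 : t ≠ 0 := by linarith
  have h1 : Real.log t ≠ 0 := by apply Real.log_ne_zero_of_pos_of_ne_one <;> linarith
  have := ((Real.hasDerivAt_log h0).inv h1).neg
  refine this.congr_deriv ?_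
  field_simp

theorem tendsto_neg_inv_log : Tendsto (fun t => -(Real.log t)⁻¹) atTop (𝓝 0) := by
  have := (Real.tendsto_log_atTop.inv_tendsto_atTop).neg
  simpa using this

theorem integrableOn_inv_mul_log_sq {x : ℝ} (hx : 2 ≤ x) :
    IntegrableOn (fun t : ℝ => 1 / (t * Real.log t ^ 2)) (Set.Ioi x) :=
  integrableOn_Ioi_deriv_of_nonneg' (fun _ ht => hasDerivAt_neg_inv_log (hx.trans ht))
    (fun t ht => by
      have : (0 : ℝ) < t := by have : x < t := ht; linarith
      positivity) tendsto_neg_inv_log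

theorem integral_inv_mul_log_sq {x : ℝ} (hx : 2 ≤ x) :
    ∫ t in Set.Ioi x, 1 / (t * Real.log t ^ 2) = 1 / Real.log x := by
  rw [integral_Ioi_of_hasDerivAt_of_nonneg' (fun _ ht => hasDerivAt_neg_inv_log (hx.trans ht))
    (fun t ht => by
      have : (0 : ℝ) < t := by have : x < t := ht; linarith
      positivity) tendsto_neg_inv_log]
  simp

theorem measurable_mA : Measurable mA := by
  have : mA = (fun n : ℕ => ∑ p ∈ (Icc 1 n).filter Nat.Prime, Real.log p / p) ∘ Nat.floor := rfl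
  rw [this]
  exact (measurable_from_nat).comp Nat.measurable_floor

theorem integral_inv_mul_log {x : ℝ} (hx : 2 ≤ x) :
    ∫ t in Set.Ioc 2 x, 1 / (t * Real.log t ^ 2) * Real.log t =
      Real.log (Real.log x) - Real.log (Real.log 2) := by
  rw [← intervalIntegral.integral_of_le hx]
  apply intervalIntegral.integral_eq_sub_of_hasDerivAt
  · intro t ht
    rw [Set.uIcc_of_le hx] at ht
    have h0 : t ≠ 0 := by linarith [ht.1]
    have h1 : Real.log t ≠ 0 := by apply Real.log_ne_zero_of_pos_of_ne_one <;> linarith [ht.1]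
    refine ((Real.hasDerivAt_log h0).log h1).congr_deriv ?_
    field_simp
  · apply ContinuousOn.intervalIntegrable
    rw [Set.uIcc_of_le hx]
    apply (continuousOn_inv_mul_log_sq _ (fun t ht => ht.1)).mul
    exact Real.continuousOn_log.mono fun t ht => by
      have := ht.1
      simp only [Set.mem_compl_iff, Set.mem_singleton_iff]
      linarith

/-- Mertens' second theorem with the constant and error term `O(1/log x)`. -/
theorem mertens2_const : ∃ M C : ℝ, 0 ≤ C ∧ ∀ x : ℝ, 2 ≤ x →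
    |∑ p ∈ (Icc 1 ⌊x⌋₊).filter Nat.Prime, (1 / (p : ℝ)) - Real.log (Real.log x) - M|
      ≤ C / Real.log x := by
  obtain ⟨C, hC0, hC⟩ := mertens1
  let R : ℝ → ℝ := fun t => 1 / (t * Real.log t ^ 2) * (mA t - Real.log t)
  have hRm : Measurable R := by
    have := measurable_mA
    have := Real.measurable_log
    fun_prop
  have hRb : ∀ t, 2 ≤ t → ‖R t‖ ≤ C * (1 / (t * Real.log t ^ 2)) := by
    intro t ht
    have h0 : 0 ≤ 1 / (t * Real.log t ^ 2) := by positivity
    rw [Real.norm_eq_abs, abs_mul, abs_of_nonneg h0, mul_comm]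
    exact mul_le_mul_of_nonneg_right (hC t (by linarith)) h0
  have hRi : ∀ x, 2 ≤ x → IntegrableOn R (Set.Ioi x) := by
    intro x hx
    refine Integrable.mono' ((integrableOn_inv_mul_log_sq hx).const_mul C)
      hRm.aestronglyMeasurable ?_
    filter_upwards [ae_restrict_mem measurableSet_Ioi] with t ht
    exact hRb t (hx.trans (le_of_lt ht))
  refine ⟨1 - Real.log (Real.log 2) + ∫ t in Set.Ioi 2, R t, 2 * C, by positivity,
    fun x hx => ?_⟩
  have hl : 0 < Real.log x := Real.log_pos (by linarith)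
  have h1 : ∫ t in Set.Ioi 2, R t = (∫ t in Set.Ioc 2 x, R t) + ∫ t in Set.Ioi x, R t := by
    rw [← setIntegral_union (Set.Ioc_disjoint_Ioi le_rfl) measurableSet_Ioi
      ((hRi 2 le_rfl).mono_set Set.Ioc_subset_Ioi_self) (hRi x hx), Set.Ioc_union_Ioi_eq_Ioi hx]
  have h2 : |∫ t in Set.Ioi x, R t| ≤ C / Real.log x := by
    have := norm_integral_le_of_norm_le ((integrableOn_inv_mul_log_sq hx).const_mul C)
      (f := R) (by
        filter_upwards [ae_restrict_mem measurableSet_Ioi] with t ht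
        exact hRb t (hx.trans (le_of_lt ht)))
    rw [integral_const_mul, integral_inv_mul_log_sq hx] at this
    rw [div_eq_mul_one_div]
    exact this
  have h3 : ∫ t in Set.Ioc 2 x, 1 / (t * Real.log t ^ 2) * mA t =
      (∫ t in Set.Ioc 2 x, R t) + (Real.log (Real.log x) - Real.log (Real.log 2)) := by
    rw [← integral_inv_mul_log hx, ← integral_add ((hRi 2 le_rfl).mono_set Set.Ioc_subset_Ioi_self)]
    · apply integral_congr_ae
      filter_upwards with t
      simp only [R]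
      ring
    · apply IntegrableOn.mono_set _ Set.Ioc_subset_Icc_self
      apply ContinuousOn.integrableOn_Icc
      apply (continuousOn_inv_mul_log_sq _ (fun t ht => ht.1)).mul
      exact Real.continuousOn_log.mono fun t ht => by
        have := ht.1
        simp only [Set.mem_compl_iff, Set.mem_singleton_iff]
        linarith
  have h4 : |mA x / Real.log x - 1| ≤ C / Real.log x := by
    have : mA x / Real.log x - 1 = (mA x - Real.log x) / Real.log x := by field_simp
    rw [this, abs_div, abs_of_pos hl]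
    exact div_le_div_of_nonneg_right (hC x (by linarith)) hl.le
  rw [sum_inv_prime_eq hx, h3, h1]
  have h5 : 2 * C / Real.log x = C / Real.log x + C / Real.log x := by ring
  rw [h5]
  rw [abs_le] at h2 h4 ⊢
  constructor <;> linarith [h2.1, h2.2, h4.1, h4.2]

/-- Mertens' second theorem with error term `O(1)`. -/
theorem mertens2 : ∃ C : ℝ, 0 ≤ C ∧ ∀ x : ℝ, 2 ≤ x →
    |∑ p ∈ (Icc 1 ⌊x⌋₊).filter Nat.Prime, (1 / (p : ℝ)) - Real.log (Real.log x)| ≤ C := by
  obtain ⟨M, C, hC0, hC⟩ := mertens2_const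
  refine ⟨|M| + 2 * C, by positivity, fun x hx => ?_⟩
  have h1 := hC x hx
  have h2 : Real.log 2 ≤ Real.log x := Real.log_le_log (by norm_num) hx
  have h3 := Real.log_two_gt_d9
  have h4 : C / Real.log x ≤ 2 * C := by
    rw [div_le_iff₀ (by linarith)]
    nlinarith
  have h5 := le_abs_self M
  have h6 := neg_abs_le M
  rw [abs_le] at h1 ⊢
  constructor <;> linarith [h1.1, h1.2]

theorem tendsto_mertens2 : ∃ M : ℝ, Tendsto (fun x : ℝ =>
    ∑ p ∈ (Icc 1 ⌊x⌋₊).filter Nat.Prime, (1 / (p : ℝ)) - Real.log (Real.log x)) atTop (𝓝 M) := by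
  obtain ⟨M, C, _, hC⟩ := mertens2_const
  refine ⟨M, ?_⟩
  rw [tendsto_iff_norm_sub_tendsto_zero]
  refine squeeze_zero' (Eventually.of_forall fun _ => norm_nonneg _) ?_
    (Real.tendsto_log_atTop.const_div_atTop C)
  filter_upwards [eventually_ge_atTop 2] with x hx
  exact hC x hx

theorem exp_neg_le_one_sub {u : ℝ} (h0 : 0 ≤ u) (h1 : u ≤ 1 / 2) :
    Real.exp (-(u + 2 * u ^ 2)) ≤ 1 - u := by
  have h3 := Real.add_one_le_exp (u + 2 * u ^ 2)
  rw [Real.exp_neg, inv_le_comm₀ (Real.exp_pos _) (by linarith)]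
  refine le_trans ?_ h3
  rw [inv_le_iff_one_le_mul₀ (by linarith)]
  nlinarith [mul_nonneg (mul_nonneg h0 h0) (by linarith : (0 : ℝ) ≤ 1 - 2 * u)]

theorem sum_inv_sq_le_one (N : ℕ) :
    ∑ p ∈ (Icc 1 N).filter Nat.Prime, (1 / (p : ℝ)) ^ 2 ≤ 1 := by
  have h1 : ∑ p ∈ (Icc 1 N).filter Nat.Prime, (1 / (p : ℝ)) ^ 2 ≤
      ∑ i ∈ Ioc 1 (max N 1), ((i : ℝ) ^ 2)⁻¹ := by
    have : ∀ p : ℕ, (1 / (p : ℝ)) ^ 2 = ((p : ℝ) ^ 2)⁻¹ := fun p => by simp
    simp_rw [this]
    apply Finset.sum_le_sum_of_subset_of_nonneg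
    · intro p hp
      simp only [Finset.mem_filter, Finset.mem_Icc, Finset.mem_Ioc] at hp ⊢
      exact ⟨hp.2.one_lt, hp.1.2.trans (le_max_left _ _)⟩
    · intro i _ _; positivity
  have h2 := sum_Ioc_inv_sq_le_sub (α := ℝ) (k := 1) (n := max N 1) one_ne_zero (le_max_right _ _)
  have h3 : (0 : ℝ) ≤ ((max N 1 : ℕ) : ℝ)⁻¹ := by positivity
  simp only [Nat.cast_one, inv_one] at h2
  linarith

/-- Mertens' third theorem, two-sided bound up to constants. -/
theorem mertens3 : ∃ c C : ℝ, 0 < c ∧ 0 < C ∧ ∀ x : ℝ, 2 ≤ x →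
    c / Real.log x ≤ ∏ p ∈ (Icc 1 ⌊x⌋₊).filter Nat.Prime, (1 - 1 / (p : ℝ)) ∧
      ∏ p ∈ (Icc 1 ⌊x⌋₊).filter Nat.Prime, (1 - 1 / (p : ℝ)) ≤ C / Real.log x := by
  obtain ⟨C, _, hC⟩ := mertens2
  refine ⟨Real.exp (-(C + 2)), Real.exp C, Real.exp_pos _, Real.exp_pos _, fun x hx => ?_⟩
  have hl : 0 < Real.log x := Real.log_pos (by linarith)
  have h1 := abs_le.1 (hC x hx)
  have hp : ∀ p ∈ (Icc 1 ⌊x⌋₊).filter Nat.Prime, 0 ≤ 1 / (p : ℝ) ∧ 1 / (p : ℝ) ≤ 1 / 2 := by
    intro p hp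
    have h2 : (2 : ℝ) ≤ p := by exact_mod_cast (Finset.mem_filter.1 hp).2.two_le
    exact ⟨by positivity, one_div_le_one_div_of_le (by norm_num) h2⟩
  constructor
  · have h2 : Real.exp (-(C + 2)) / Real.log x ≤ Real.exp
        (∑ p ∈ (Icc 1 ⌊x⌋₊).filter Nat.Prime, -(1 / (p : ℝ) + 2 * (1 / (p : ℝ)) ^ 2)) := by
      rw [← Real.exp_log hl, ← Real.exp_sub]
      apply Real.exp_le_exp.2
      rw [Finset.sum_neg_distrib, Finset.sum_add_distrib, ← Finset.mul_sum]
      have := sum_inv_sq_le_one ⌊x⌋₊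
      linarith [h1.2]
    refine h2.trans ?_
    rw [Real.exp_sum]
    apply Finset.prod_le_prod (fun _ _ => (Real.exp_pos _).le)
    intro p hp'
    exact exp_neg_le_one_sub (hp p hp').1 (hp p hp').2
  · have h2 : Real.exp (∑ p ∈ (Icc 1 ⌊x⌋₊).filter Nat.Prime, -(1 / (p : ℝ))) ≤
        Real.exp C / Real.log x := by
      rw [← Real.exp_log hl, ← Real.exp_sub]
      apply Real.exp_le_exp.2
      rw [Finset.sum_neg_distrib]
      linarith [h1.1]
    refine le_trans ?_ h2
    rw [Real.exp_sum]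
    apply Finset.prod_le_prod (fun p hp' => by linarith [(hp p hp').2])
    intro p _
    have := Real.add_one_le_exp (-(1 / (p : ℝ)))
    linarith

end Vale.Agent.Lib.NT
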