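import Vale.Agent.Lib.NT.Tauber

/-!
# The Wiener-Ikehara theorem and the prime number theorem (also in progressions)
-/

open Real Filter Topology MeasureTheory Asymptotics
open ArithmeticFunction hiding log

namespace Vale.Agent.Lib.NT

/-- Wiener-Ikehara theorem (with the Chebyshev type bound as a hypothesis). -/
theorem wiener_ikehara (a : ℕ → ℝ) (ha : ∀ n, 0 ≤ a n) (C : ℝ)
    (hC : ∀ n : ℕ, ∑ k ∈ Finset.Icc 1 n, a k ≤ C * n) (A : ℝ) (G : ℂ → ℂ)
    (hG : ContinuousOn G {s | 1 ≤ s.re})
    (hL : ∀ s : ℂ, 1 < s.re → G s = LSeries (fun n => (a n : ℂ)) s - A / (s - 1)) :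
    Tendsto (fun x : ℝ => (∑ k ∈ Finset.Icc 1 ⌊x⌋₊, a k) / x) atTop (𝓝 A) := by
  have hC0 : 0 ≤ C := by
    have := hC 1
    simp only [Finset.Icc_self, Finset.sum_singleton, Nat.cast_one, mul_one] at this
    exact (ha 1).trans this
  let S : ℝ → ℝ := fun x => ∑ k ∈ Finset.Icc 1 ⌊x⌋₊, a k
  have hS0 : ∀ x, 0 ≤ S x := fun x => Finset.sum_nonneg fun k _ => ha k
  have hSm : Monotone S := by
    intro x y hxy
    apply Finset.sum_le_sum_of_subset_of_nonneg
      (Finset.Icc_subset_Icc_right (Nat.floor_le_floor hxy)) (fun k _ _ => ha k)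
  let f : ℝ → ℝ := fun t => S (Real.exp t) / Real.exp t
  have hfm : Measurable f :=
    (hSm.measurable.comp Real.measurable_exp).div Real.measurable_exp
  have hf0 : ∀ t, 0 ≤ f t := fun t => div_nonneg (hS0 _) (Real.exp_pos _).le
  have hfM : ∀ t, f t ≤ C := by
    intro t
    simp only [f]
    rw [div_le_iff₀ (Real.exp_pos _)]
    exact (hC _).trans (mul_le_mul_of_nonneg_left (Nat.floor_le (Real.exp_pos _).le) hC0)
  have hmono : Monotone fun t => Real.exp t * f t := by
    intro t u htu
    simp only [f]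
    rw [mul_div_cancel₀ _ (Real.exp_pos _).ne', mul_div_cancel₀ _ (Real.exp_pos _).ne']
    exact hSm (Real.exp_le_exp.2 htu)
  have hO : (fun n : ℕ => ∑ k ∈ Finset.Icc 1 n, a k) =O[atTop] fun n : ℕ => (n : ℝ) ^ (1 : ℝ) := by
    apply IsBigO.of_bound C
    filter_upwards with n
    rw [Real.norm_of_nonneg (Finset.sum_nonneg fun k _ => ha k), Real.rpow_one,
      Real.norm_of_nonneg (Nat.cast_nonneg _)]
    exact hC n
  have hLap : ∀ z : ℂ, 0 < z.re →
      ∫ t in Set.Ioi (0 : ℝ), ((f t - A : ℝ) : ℂ) * Complex.exp (-z * t) =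
        (G (1 + z) - A) / (1 + z) := by
    intro z hz
    have hs : 1 < (1 + z).re := by simpa using hz
    have hz0 : z ≠ 0 := by rintro rfl; simp at hz
    have hs0 : 1 + z ≠ 0 := by
      intro h0; rw [h0] at hs; norm_num at hs
    have h1 := LSeries_eq_mul_integral_of_nonneg a zero_le_one hs hO ha
    have hi0 : IntegrableOn (fun t : ℝ => Complex.exp (-z * t)) (Set.Ioi 0) :=
      integrableOn_exp_mul_complex_Ioi (by simpa using hz) 0
    have hi1 : IntegrableOn (fun t : ℝ => (f t : ℂ) * Complex.exp (-z * t)) (Set.Ioi 0) := by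
      refine Integrable.mono' (hi0.norm.const_mul C) ?_ (Eventually.of_forall fun t => ?_)
      · apply Measurable.aestronglyMeasurable
        fun_prop
      · rw [norm_mul, Complex.norm_real, Real.norm_of_nonneg (hf0 t)]
        exact mul_le_mul_of_nonneg_right (hfM t) (norm_nonneg _)
    have h2 : ∫ t in Set.Ioi (0 : ℝ), (f t : ℂ) * Complex.exp (-z * t) =
        ∫ t in Set.Ioi (1 : ℝ), (∑ k ∈ Finset.Icc 1 ⌊t⌋₊, (a k : ℂ)) * t ^ (-(1 + z + 1)) := by
      rw [← Real.exp_zero, ← integral_comp_exp_Ioi]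
      apply integral_congr_ae
      filter_upwards with t
      have h3 : ((Real.exp t : ℝ) : ℂ) ^ (-(1 + z + 1)) = Complex.exp (t * -(1 + z + 1)) := by
        rw [Complex.cpow_def_of_ne_zero (by exact_mod_cast (Real.exp_pos t).ne'),
          ← Complex.ofReal_log (Real.exp_pos t).le, Real.log_exp]
      rw [h3, Complex.real_smul]
      simp only [f, S]
      push_cast
      have h4 : Complex.exp (-z * t) =
          Complex.exp t * Complex.exp t * Complex.exp (t * -(1 + z + 1)) := by
        rw [← Complex.exp_add, ← Complex.exp_add]; congr 1; ring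
      rw [h4]
      have := Complex.exp_ne_zero t
      field_simp
    have h3 : ∫ t in Set.Ioi (0 : ℝ), (A : ℂ) * Complex.exp (-z * t) = A / z := by
      rw [integral_const_mul, integral_exp_mul_complex_Ioi (by simpa using hz)]
      simp
      ring
    have h4 : ∫ t in Set.Ioi (0 : ℝ), ((f t - A : ℝ) : ℂ) * Complex.exp (-z * t) =
        (∫ t in Set.Ioi (0 : ℝ), (f t : ℂ) * Complex.exp (-z * t)) -
          ∫ t in Set.Ioi (0 : ℝ), (A : ℂ) * Complex.exp (-z * t) := by
      rw [← integral_sub hi1 (hi0.const_mul _)]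
      apply integral_congr_ae
      filter_upwards with t
      push_cast
      ring
    rw [h4, h3, h2, hL _ hs, h1]
    simp only [add_sub_cancel_left]
    field_simp
    ring
  have hg : ContinuousOn (fun z : ℂ => (G (1 + z) - A) / (1 + z)) {z | 0 ≤ z.re} := by
    apply ContinuousOn.div
    · apply ContinuousOn.sub _ continuousOn_const
      apply hG.comp (by fun_prop)
      intro z hz
      simpa using hz
    · fun_prop
    · intro z hz h0
      have h1 : (0 : ℝ) ≤ z.re := hz
      have h2 := congrArg Complex.re h0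
      simp at h2
      linarith
  have hT := tauber f A C hfm hf0 hfM hmono (fun l hl =>
    fourier_step (fun t => f t - A) (hfm.sub_const A) (C + |A|) (fun t => by
      have := le_abs_self A
      have := neg_abs_le A
      rw [abs_le]
      constructor <;> linarith [hf0 t, hfM t]) _ hg hLap hl)
  refine (hT.comp Real.tendsto_log_atTop).congr' ?_
  filter_upwards [eventually_gt_atTop 0] with x hx
  simp only [Function.comp, f, S, Real.exp_log hx]

theorem psi_eq_sum_Icc_one (x : ℝ) : Chebyshev.psi x = ∑ n ∈ Finset.Icc 1 ⌊x⌋₊, Λ n := by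
  rw [Chebyshev.psi]; congr 1

theorem theta_eq_sum_Icc_one (x : ℝ) :
    Chebyshev.theta x = ∑ p ∈ (Finset.Icc 1 ⌊x⌋₊).filter Nat.Prime, Real.log p := by
  rw [Chebyshev.theta]; congr 1

/-- Prime number theorem in progressions, von Mangoldt form. -/
theorem psi_AP {q : ℕ} [NeZero q] {a : ZMod q} (ha : IsUnit a) :
    Tendsto (fun x : ℝ =>
      (∑ n ∈ (Finset.Icc 1 ⌊x⌋₊).filter (fun n : ℕ => (n : ZMod q) = a), Λ n) / x) atTop
      (𝓝 ((q.totient : ℝ)⁻¹)) := by
  have h := wiener_ikehara (vonMangoldt.residueClass a) (vonMangoldt.residueClass_nonneg a)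
    (Real.log 4 + 4) (fun n => by
      have h1 := Chebyshev.psi_le_const_mul_self (Nat.cast_nonneg (α := ℝ) n)
      rw [psi_eq_sum_Icc_one, Nat.floor_natCast] at h1
      exact (Finset.sum_le_sum fun k _ => vonMangoldt.residueClass_le a k).trans h1)
    ((q.totient : ℝ)⁻¹) (vonMangoldt.LFunctionResidueClassAux a)
    (vonMangoldt.continuousOn_LFunctionResidueClassAux a) (fun s hs => by
      rw [vonMangoldt.eqOn_LFunctionResidueClassAux ha hs]
      push_cast
      rfl)
  refine h.congr fun x => ?_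
  congr 1
  rw [Finset.sum_filter]
  apply Finset.sum_congr rfl
  intro n _
  simp [vonMangoldt.residueClass, Set.indicator_apply]

/-- Prime number theorem for `ψ`. -/
theorem psi_pnt : Tendsto (fun x : ℝ => Chebyshev.psi x / x) atTop (𝓝 1) := by
  have h := psi_AP (q := 1) (a := 1) isUnit_one
  simp only [Nat.totient_one, Nat.cast_one, inv_one] at h
  refine h.congr fun x => ?_
  rw [psi_eq_sum_Icc_one, Finset.filter_true_of_mem fun n _ => Subsingleton.elim _ _]

theorem tendsto_psi_sub_theta_div :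
    Tendsto (fun x : ℝ => (Chebyshev.psi x - Chebyshev.theta x) / x) atTop (𝓝 0) := by
  have h1 : (fun x : ℝ => √x) =o[atTop] fun x => x := by
    rw [isLittleO_iff_tendsto' (by
      filter_upwards [eventually_gt_atTop 0] with x hx h; exact absurd h hx.ne')]
    simp_rw [Real.sqrt_div_self]
    exact Real.tendsto_sqrt_atTop.inv_tendsto_atTop
  exact (Chebyshev.isBigO_psi_sub_theta_sqrt.trans_isLittleO h1).tendsto_div_nhds_zero

/-- Prime number theorem for `θ`. -/
theorem theta_pnt : Tendsto (fun x : ℝ => Chebyshev.theta x / x) atTop (𝓝 1) := by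
  have h := psi_pnt.sub tendsto_psi_sub_theta_div
  simp only [sub_zero] at h
  refine h.congr fun x => ?_
  ring

/-- Prime number theorem in progressions, `θ` form. -/
theorem theta_AP {q : ℕ} [NeZero q] {a : ZMod q} (ha : IsUnit a) :
    Tendsto (fun x : ℝ => (∑ p ∈ (Finset.Icc 1 ⌊x⌋₊).filter
      (fun p : ℕ => p.Prime ∧ (p : ZMod q) = a), Real.log p) / x) atTop
      (𝓝 ((q.totient : ℝ)⁻¹)) := by
  have h0 : Tendsto (fun x : ℝ =>
      (∑ n ∈ (Finset.Icc 1 ⌊x⌋₊).filter (fun n : ℕ => (n : ZMod q) = a), Λ n -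
        ∑ p ∈ (Finset.Icc 1 ⌊x⌋₊).filter (fun p : ℕ => p.Prime ∧ (p : ZMod q) = a),
          Real.log p) / x) atTop (𝓝 0) := by
    refine squeeze_zero' ?_ ?_ tendsto_psi_sub_theta_div
    · filter_upwards [eventually_gt_atTop 0] with x hx
      apply div_nonneg _ hx.le
      rw [Finset.sum_filter, Finset.sum_filter, ← Finset.sum_sub_distrib]
      apply Finset.sum_nonneg
      intro n _
      by_cases h1 : n.Prime <;> by_cases h2 : (n : ZMod q) = a <;>
        simp [h1, h2, vonMangoldt_apply_prime]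
    · filter_upwards [eventually_gt_atTop 0] with x hx
      apply div_le_div_of_nonneg_right _ hx.le
      rw [psi_eq_sum_Icc_one, theta_eq_sum_Icc_one, Finset.sum_filter, Finset.sum_filter,
        Finset.sum_filter, ← Finset.sum_sub_distrib, ← Finset.sum_sub_distrib]
      apply Finset.sum_le_sum
      intro n _
      by_cases h1 : n.Prime <;> by_cases h2 : (n : ZMod q) = a <;>
        simp [h1, h2, vonMangoldt_apply_prime]
  have h := (psi_AP ha).sub h0
  simp only [sub_zero] at h
  refine h.congr fun x => ?_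
  ring

theorem card_primes_eq (n : ℕ) :
    ((Finset.Icc 1 n).filter Nat.Prime).card = Nat.primeCounting n := by
  rw [← Nat.primesLE_eq_filter_Icc_one, Nat.primesLE_card_eq_primeCounting]

theorem tendsto_pi_log_sub_theta_div :
    Tendsto (fun x : ℝ => ((Nat.primeCounting ⌊x⌋₊ : ℝ) * Real.log x - Chebyshev.theta x) / x)
      atTop (𝓝 0) := by
  have h1 : (fun x : ℝ => x / Real.log x ^ 2) =o[atTop] fun x => x / Real.log x := by
    rw [isLittleO_iff_tendsto' (by
      filter_upwards [eventually_gt_atTop 1] with x hx h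
      have := Real.log_pos hx
      have : 0 < x / Real.log x := by positivity
      exact absurd h this.ne')]
    refine Real.tendsto_log_atTop.inv_tendsto_atTop.congr' ?_
    filter_upwards [eventually_gt_atTop 1] with x hx
    have := Real.log_pos hx
    simp only [Pi.inv_apply]
    field_simp
  have h2 := (Chebyshev.primeCounting_sub_theta_div_log_isBigO.trans_isLittleO
    h1).tendsto_div_nhds_zero
  refine h2.congr' ?_
  filter_upwards [eventually_gt_atTop 1] with x hx
  have := Real.log_pos hx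
  field_simp

/-- From a `θ` asymptotic for a set of primes to the counting asymptotic. -/
theorem count_of_theta (P : ℕ → Prop) [DecidablePred P] (hP : ∀ p, P p → p.Prime) (A : ℝ)
    (h : Tendsto (fun x : ℝ => (∑ p ∈ (Finset.Icc 1 ⌊x⌋₊).filter P, Real.log p) / x) atTop
      (𝓝 A)) :
    Tendsto (fun x : ℝ => (((Finset.Icc 1 ⌊x⌋₊).filter P).card : ℝ) / (x / Real.log x)) atTop
      (𝓝 A) := by
  have hnn : ∀ x : ℝ, 1 < x → ∀ p ∈ Finset.Icc 1 ⌊x⌋₊, 0 ≤ Real.log x - Real.log p := by
    intro x hx p hp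
    obtain ⟨h1, h2⟩ := Finset.mem_Icc.1 hp
    have h3 : (p : ℝ) ≤ x := (Nat.le_floor_iff (by linarith)).1 h2
    have h4 : (0 : ℝ) < p := by exact_mod_cast h1
    linarith [Real.log_le_log h4 h3]
  have h0 : Tendsto (fun x : ℝ => ((((Finset.Icc 1 ⌊x⌋₊).filter P).card : ℝ) * Real.log x -
      ∑ p ∈ (Finset.Icc 1 ⌊x⌋₊).filter P, Real.log p) / x) atTop (𝓝 0) := by
    refine squeeze_zero' ?_ ?_ tendsto_pi_log_sub_theta_div
    · filter_upwards [eventually_gt_atTop 1] with x hx
      apply div_nonneg _ (by linarith)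
      rw [← nsmul_eq_mul, ← Finset.sum_const, ← Finset.sum_sub_distrib]
      exact Finset.sum_nonneg fun p hp => hnn x hx p (Finset.mem_filter.1 hp).1
    · filter_upwards [eventually_gt_atTop 1] with x hx
      apply div_le_div_of_nonneg_right _ (by linarith)
      rw [← card_primes_eq, theta_eq_sum_Icc_one, ← nsmul_eq_mul, ← Finset.sum_const,
        ← Finset.sum_sub_distrib, ← nsmul_eq_mul, ← Finset.sum_const, ← Finset.sum_sub_distrib]
      apply Finset.sum_le_sum_of_subset_of_nonneg
      · intro p hp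
        obtain ⟨h1, h2⟩ := Finset.mem_filter.1 hp
        exact Finset.mem_filter.2 ⟨h1, hP p h2⟩
      · intro p hp _
        exact hnn x hx p (Finset.mem_filter.1 hp).1
  have h1 := h.add h0
  simp only [add_zero] at h1
  refine h1.congr' ?_
  filter_upwards [eventually_gt_atTop 1] with x hx
  have := Real.log_pos hx
  field_simp
  ring

/-- The prime number theorem. -/
theorem pnt : Tendsto (fun x : ℝ => (Nat.primeCounting ⌊x⌋₊ : ℝ) / (x / Real.log x))
    atTop (𝓝 1) := by
  have h := count_of_theta Nat.Prime (fun _ h => h) 1 (by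
    simpa only [← theta_eq_sum_Icc_one] using theta_pnt)
  simpa only [card_primes_eq] using h

/-- The prime number theorem in arithmetic progressions. -/
theorem pnt_AP {q : ℕ} [NeZero q] {a : ZMod q} (ha : IsUnit a) :
    Tendsto (fun x : ℝ => (((Finset.Icc 1 ⌊x⌋₊).filter
      (fun p : ℕ => p.Prime ∧ (p : ZMod q) = a)).card : ℝ) / (x / Real.log x)) atTop
      (𝓝 ((q.totient : ℝ)⁻¹)) :=
  count_of_theta _ (fun _ h => h.1) _ (theta_AP ha)

end Vale.Agent.Lib.NT
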