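import Mathlib

/-!
# The analytic core of the Wiener-Ikehara theorem (Fejer kernel)
-/

open Real Filter Topology MeasureTheory Set

namespace Vale.Agent.Lib.NT

/-- The Fejer kernel `(1 - cos v) / v ^ 2`. -/
noncomputable def fej (v : ℝ) : ℝ := ∫ ξ in Ioc (0 : ℝ) 1, (1 - ξ) * Real.cos (ξ * v)

theorem fej_eq {v : ℝ} (hv : v ≠ 0) : fej v = (1 - Real.cos v) / v ^ 2 := by
  rw [fej, ← intervalIntegral.integral_of_le zero_le_one]
  have h : ∀ ξ ∈ uIcc (0 : ℝ) 1, HasDerivAt
      (fun ξ => (1 - ξ) * Real.sin (ξ * v) / v - Real.cos (ξ * v) / v ^ 2)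
      ((1 - ξ) * Real.cos (ξ * v)) ξ := by
    intro ξ _
    have h1 : HasDerivAt (fun ξ : ℝ => ξ * v) v ξ := by simpa using (hasDerivAt_id ξ).mul_const v
    have h2 : HasDerivAt (fun ξ : ℝ => 1 - ξ) (-1) ξ := by
      simpa using (hasDerivAt_id ξ).const_sub 1
    have := ((h2.mul h1.sin).div_const v).sub (h1.cos.div_const (v ^ 2))
    refine this.congr_deriv ?_
    field_simp
    ring
  rw [intervalIntegral.integral_eq_sub_of_hasDerivAt h
    (Continuous.intervalIntegrable (by fun_prop) _ _)]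
  simp
  ring

theorem fej_zero : fej 0 = 1 / 2 := by
  rw [fej, ← intervalIntegral.integral_of_le zero_le_one]
  simp only [mul_zero, Real.cos_zero, mul_one]
  rw [intervalIntegral.integral_sub (by simp) (by simp)]
  simp
  norm_num

theorem fej_nonneg (v : ℝ) : 0 ≤ fej v := by
  rcases eq_or_ne v 0 with rfl | hv
  · rw [fej_zero]; norm_num
  · rw [fej_eq hv]
    exact div_nonneg (by linarith [Real.cos_le_one v]) (sq_nonneg _)

theorem fej_le (v : ℝ) : fej v ≤ 3 * (1 + v ^ 2)⁻¹ := by
  rcases eq_or_ne v 0 with rfl | hv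
  · rw [fej_zero]; norm_num
  · have h0 : 0 < v ^ 2 := by positivity
    rw [fej_eq hv, ← div_eq_mul_inv, div_le_div_iff₀ h0 (by positivity)]
    have h1 := Real.one_sub_sq_div_two_le_cos (x := v)
    have h2 := Real.neg_one_le_cos v
    nlinarith

theorem continuous_fej : Continuous fej := by
  have : fej = fun v => ∫ ξ in (0 : ℝ)..1, (1 - ξ) * Real.cos (ξ * v) := by
    ext v; rw [fej, ← intervalIntegral.integral_of_le zero_le_one]
  rw [this]
  exact intervalIntegral.continuous_parametric_intervalIntegral_of_continuous'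
    (f := fun v ξ : ℝ => (1 - ξ) * Real.cos (ξ * v)) (by fun_prop) 0 1

theorem integrable_fej : Integrable fej := by
  refine Integrable.mono' (integrable_inv_one_add_sq.const_mul 3)
    continuous_fej.aestronglyMeasurable (Eventually.of_forall fun v => ?_)
  rw [Real.norm_of_nonneg (fej_nonneg v)]
  exact fej_le v

theorem integral_fej_pos : 0 < ∫ v, fej v :=
  integral_pos_of_integrable_nonneg_nonzero (x := 0) continuous_fej integrable_fej fej_nonneg
    (by rw [fej_zero]; norm_num)

theorem fej_eq_re (v : ℝ) :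
    fej v = (∫ ξ in Ioc (0 : ℝ) 1, ((1 - ξ : ℝ) : ℂ) * Complex.exp (Complex.I * (ξ * v))).re := by
  have hi : IntegrableOn (fun ξ : ℝ => ((1 - ξ : ℝ) : ℂ) * Complex.exp (Complex.I * (ξ * v)))
      (Ioc 0 1) :=
    (Continuous.integrableOn_Icc (by fun_prop)).mono_set Ioc_subset_Icc_self
  rw [fej, ← RCLike.re_to_complex, ← integral_re hi]
  apply integral_congr_ae
  filter_upwards with ξ
  rw [RCLike.re_to_complex, Complex.re_ofReal_mul, mul_comm Complex.I, ← Complex.ofReal_mul,
    Complex.exp_ofReal_mul_I_re]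

theorem integrable_fej_comp {l : ℝ} (hl : 0 < l) (y : ℝ) :
    Integrable fun t => fej (l * (y - t)) :=
  (integrable_fej.comp_mul_left' hl.ne').comp_sub_left y

theorem fourier_eps (H : ℝ → ℝ) (hHm : Measurable H) (M : ℝ) (hM : ∀ t, |H t| ≤ M)
    (g : ℂ → ℂ)
    (hL : ∀ z : ℂ, 0 < z.re → ∫ t in Ioi (0 : ℝ), (H t : ℂ) * Complex.exp (-z * t) = g z)
    (l y : ℝ) {ε : ℝ} (hε : 0 < ε) :
    ∫ t in Ioi (0 : ℝ), H t * Real.exp (-ε * t) * fej (l * (y - t)) =
      (∫ ξ in Ioc (0 : ℝ) 1, ((1 - ξ : ℝ) : ℂ) * Complex.exp (Complex.I * (ξ * l * y)) *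
        g (ε + Complex.I * (ξ * l))).re := by
  let Φ : ℝ → ℝ → ℂ := fun t ξ => ((H t * Real.exp (-ε * t) : ℝ) : ℂ) *
    (((1 - ξ : ℝ) : ℂ) * Complex.exp (Complex.I * (ξ * (l * (y - t) : ℝ))))
  have hΦ : Integrable (Function.uncurry Φ)
      ((volume.restrict (Ioi (0 : ℝ))).prod (volume.restrict (Ioc (0 : ℝ) 1))) := by
    have h1 : Integrable (fun t : ℝ => M * Real.exp (-ε * t)) (volume.restrict (Ioi (0 : ℝ))) :=
      (exp_neg_integrableOn_Ioi 0 hε).const_mul M
    have h2 : Integrable (fun ξ : ℝ => |1 - ξ|) (volume.restrict (Ioc (0 : ℝ) 1)) :=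
      (Continuous.integrableOn_Icc (by fun_prop)).mono_set Ioc_subset_Icc_self
    refine Integrable.mono' (h1.mul_prod h2) ?_ (Eventually.of_forall fun p => ?_)
    · apply Measurable.aestronglyMeasurable
      simp only [Φ, Function.uncurry_def]
      fun_prop
    · simp only [Φ, Function.uncurry_def, norm_mul, Complex.norm_real, Real.norm_eq_abs]
      rw [← Complex.ofReal_mul, mul_comm Complex.I, Complex.norm_exp_ofReal_mul_I, mul_one,
        abs_of_pos (Real.exp_pos _)]
      gcongr
      exact hM _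
  have hswap := integral_integral_swap hΦ
  have hR : ∫ ξ in Ioc (0 : ℝ) 1, ∫ t in Ioi (0 : ℝ), Φ t ξ =
      ∫ ξ in Ioc (0 : ℝ) 1, ((1 - ξ : ℝ) : ℂ) * Complex.exp (Complex.I * (ξ * l * y)) *
        g (ε + Complex.I * (ξ * l)) := by
    apply integral_congr_ae
    filter_upwards with ξ
    rw [← hL _ (by simpa using hε), ← integral_const_mul]
    apply integral_congr_ae
    filter_upwards with t
    simp only [Φ]
    push_cast
    have : Complex.exp (-(ε : ℂ) * t) * Complex.exp (Complex.I * (ξ * (l * (y - t)))) =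
        Complex.exp (Complex.I * (ξ * l * y)) *
          Complex.exp (-((ε : ℂ) + Complex.I * (ξ * l)) * t) := by
      rw [← Complex.exp_add, ← Complex.exp_add]; congr 1; ring
    linear_combination ((H t : ℂ) * (1 - ξ)) * this
  have hI : Integrable (fun t => ∫ ξ in Ioc (0 : ℝ) 1, Φ t ξ) (volume.restrict (Ioi (0 : ℝ))) :=
    hΦ.integral_prod_left
  rw [← hR, ← hswap, ← RCLike.re_to_complex, ← integral_re hI]
  apply integral_congr_ae
  filter_upwards with t
  simp only [Φ]
  rw [integral_const_mul, RCLike.re_to_complex, Complex.re_ofReal_mul, fej_eq_re]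

theorem fourier_zero (H : ℝ → ℝ) (hHm : Measurable H) (M : ℝ) (hM : ∀ t, |H t| ≤ M)
    (g : ℂ → ℂ) (hg : ContinuousOn g {z | 0 ≤ z.re})
    (hL : ∀ z : ℂ, 0 < z.re → ∫ t in Ioi (0 : ℝ), (H t : ℂ) * Complex.exp (-z * t) = g z)
    {l : ℝ} (hl : 0 < l) (y : ℝ) :
    ∫ t in Ioi (0 : ℝ), H t * fej (l * (y - t)) =
      (∫ ξ in Ioc (0 : ℝ) 1, ((1 - ξ : ℝ) : ℂ) * Complex.exp (Complex.I * (ξ * l * y)) *
        g (Complex.I * (ξ * l))).re := by
  have h1 : Tendsto (fun ε : ℝ => ∫ t in Ioi (0 : ℝ), H t * Real.exp (-ε * t) * fej (l * (y - t)))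
      (𝓝[>] 0) (𝓝 (∫ t in Ioi (0 : ℝ), H t * fej (l * (y - t)))) := by
    apply tendsto_integral_filter_of_dominated_convergence (fun t => M * fej (l * (y - t)))
    · filter_upwards with ε
      apply Measurable.aestronglyMeasurable
      have := continuous_fej.measurable
      fun_prop
    · filter_upwards [self_mem_nhdsWithin] with ε hε
      filter_upwards [ae_restrict_mem measurableSet_Ioi] with t ht
      rw [Real.norm_eq_abs, abs_mul, abs_mul, abs_of_nonneg (fej_nonneg _),
        abs_of_pos (Real.exp_pos _)]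
      apply mul_le_mul_of_nonneg_right _ (fej_nonneg _)
      have h2 : Real.exp (-ε * t) ≤ 1 := by
        rw [Real.exp_le_one_iff]
        have : 0 < ε := hε
        have : 0 < t := ht
        nlinarith
      calc |H t| * Real.exp (-ε * t) ≤ |H t| * 1 := by gcongr
        _ ≤ M := by simpa using hM t
    · exact ((integrable_fej_comp hl y).const_mul M).integrableOn
    · filter_upwards with t
      have : Continuous fun ε : ℝ => H t * Real.exp (-ε * t) * fej (l * (y - t)) := by fun_prop
      have := this.tendsto 0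
      simp only [neg_zero, zero_mul, Real.exp_zero, mul_one] at this
      exact this.mono_left nhdsWithin_le_nhds
  let φ : ℝ × ℝ → ℂ := fun p => p.1 + Complex.I * (p.2 * l)
  have hφ : Continuous φ := by fun_prop
  have hK : IsCompact (φ '' (Icc (0 : ℝ) 1 ×ˢ Icc (0 : ℝ) 1)) :=
    (isCompact_Icc.prod isCompact_Icc).image hφ
  have hsub : φ '' (Icc (0 : ℝ) 1 ×ˢ Icc (0 : ℝ) 1) ⊆ {z | 0 ≤ z.re} := by
    rintro _ ⟨p, hp, rfl⟩
    simpa [φ] using hp.1.1
  obtain ⟨B, hB⟩ := hK.exists_bound_of_continuousOn (hg.mono hsub)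
  have hcont : ∀ ε : ℝ, 0 ≤ ε → Continuous fun ξ : ℝ => g (ε + Complex.I * (ξ * l)) := by
    intro ε hε
    apply hg.comp_continuous (by fun_prop)
    intro ξ
    simpa using hε
  have h2 : Tendsto (fun ε : ℝ => ∫ ξ in Ioc (0 : ℝ) 1, ((1 - ξ : ℝ) : ℂ) *
      Complex.exp (Complex.I * (ξ * l * y)) * g (ε + Complex.I * (ξ * l))) (𝓝[>] 0)
      (𝓝 (∫ ξ in Ioc (0 : ℝ) 1, ((1 - ξ : ℝ) : ℂ) * Complex.exp (Complex.I * (ξ * l * y)) *
        g (Complex.I * (ξ * l)))) := by
    apply tendsto_integral_filter_of_dominated_convergence (fun _ => B)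
    · filter_upwards [self_mem_nhdsWithin] with ε hε
      have := hcont ε (le_of_lt hε)
      apply Continuous.aestronglyMeasurable
      exact Continuous.mul (by fun_prop) this
    · filter_upwards [Ioc_mem_nhdsGT zero_lt_one] with ε hε
      filter_upwards [ae_restrict_mem measurableSet_Ioc] with ξ hξ
      have h3 := hB (φ (ε, ξ)) ⟨(ε, ξ), ⟨⟨hε.1.le, hε.2⟩, ⟨hξ.1.le, hξ.2⟩⟩, rfl⟩
      rw [norm_mul, norm_mul, ← Complex.ofReal_mul, ← Complex.ofReal_mul, mul_comm Complex.I,
        Complex.norm_exp_ofReal_mul_I, mul_one, Complex.norm_real, Real.norm_eq_abs,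
        abs_of_nonneg (by linarith [hξ.2])]
      have h4 : ‖g (ε + Complex.I * ((ξ * l : ℝ) : ℂ))‖ ≤ B := by simpa [φ] using h3
      have h5 := norm_nonneg (g (ε + Complex.I * ((ξ * l : ℝ) : ℂ)))
      nlinarith [hξ.1, hξ.2]
    · exact integrable_const B
    · filter_upwards with ξ
      apply Tendsto.const_mul
      have h3 : Tendsto (fun ε : ℝ => (ε : ℂ) + Complex.I * (ξ * l)) (𝓝[>] 0)
          (𝓝[{z : ℂ | 0 ≤ z.re}] (Complex.I * (ξ * l))) := by
        apply tendsto_nhdsWithin_of_tendsto_nhds_of_eventually_within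
        · have : Continuous fun ε : ℝ => (ε : ℂ) + Complex.I * (ξ * l) := by fun_prop
          have := this.tendsto 0
          simp only [Complex.ofReal_zero, zero_add] at this
          exact this.mono_left nhdsWithin_le_nhds
        · filter_upwards [self_mem_nhdsWithin] with ε hε
          simpa using le_of_lt hε
      exact (hg _ (by simp)).tendsto.comp h3
  have h3 := (Complex.continuous_re.tendsto _).comp h2
  refine tendsto_nhds_unique h1 (h3.congr' ?_)
  filter_upwards [self_mem_nhdsWithin] with ε hε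
  exact (fourier_eps H hHm M hM g hL l y hε).symm

theorem fourier_step (H : ℝ → ℝ) (hHm : Measurable H) (M : ℝ) (hM : ∀ t, |H t| ≤ M)
    (g : ℂ → ℂ) (hg : ContinuousOn g {z | 0 ≤ z.re})
    (hL : ∀ z : ℂ, 0 < z.re → ∫ t in Ioi (0 : ℝ), (H t : ℂ) * Complex.exp (-z * t) = g z)
    {l : ℝ} (hl : 0 < l) :
    Tendsto (fun y => ∫ t in Ioi (0 : ℝ), H t * fej (l * (y - t))) atTop (𝓝 0) := by
  simp_rw [fourier_zero H hHm M hM g hg hL hl]
  have h1 := Real.tendsto_integral_exp_smul_cocompact
    ((Ioc (0 : ℝ) 1).indicator fun ξ : ℝ => ((1 - ξ : ℝ) : ℂ) * g (Complex.I * (ξ * l)))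
  have h2 : Tendsto (fun y : ℝ => -(l / (2 * π)) * y) atTop (cocompact ℝ) := by
    have : Tendsto (fun y : ℝ => -(l / (2 * π)) * y) atTop atBot :=
      tendsto_id.const_mul_atTop_of_neg (by
        have : 0 < l / (2 * π) := by positivity
        linarith)
    exact this.mono_right atBot_le_cocompact
  have h3 := (Complex.continuous_re.tendsto _).comp (h1.comp h2)
  simp only [Complex.zero_re] at h3
  refine h3.congr fun y => ?_
  simp only [Function.comp]
  congr 1
  rw [← integral_indicator measurableSet_Ioc]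
  apply integral_congr_ae
  filter_upwards with ξ
  by_cases hξ : ξ ∈ Ioc (0 : ℝ) 1
  · rw [indicator_of_mem hξ, indicator_of_mem hξ, Circle.smul_def, Real.fourierChar_apply,
      smul_eq_mul]
    have : ((2 * π * -(ξ * (-(l / (2 * π)) * y)) : ℝ) : ℂ) * Complex.I =
        Complex.I * (ξ * l * y) := by
      have : 2 * π * -(ξ * (-(l / (2 * π)) * y)) = ξ * l * y := by field_simp
      rw [this]; push_cast; ring
    rw [this]; ring
  · rw [indicator_of_notMem hξ, indicator_of_notMem hξ, smul_zero]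

/-- Tail of the kernel. -/
noncomputable def fejTail (R : ℝ) : ℝ := ∫ v, {v : ℝ | R < |v|}.indicator fej v

theorem measurableSet_tail (R : ℝ) : MeasurableSet {v : ℝ | R < |v|} :=
  measurableSet_lt measurable_const (by fun_prop)

theorem tendsto_fejTail : Tendsto fejTail atTop (𝓝 0) := by
  have h := tendsto_setIntegral_of_antitone (μ := volume) (f := fej)
    (s := fun R : ℝ => {v : ℝ | R < |v|}) measurableSet_tail
    (fun a b hab v hv => lt_of_le_of_lt hab hv) ⟨0, integrable_fej.integrableOn⟩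
  have h2 : (⋂ R : ℝ, {v : ℝ | R < |v|}) = ∅ := by
    ext v
    simp only [mem_iInter, mem_ofPred_eq, mem_empty_iff_false, iff_false, not_forall, not_lt]
    exact ⟨|v|, le_rfl⟩
  rw [h2, setIntegral_empty] at h
  refine h.congr fun R => ?_
  rw [fejTail, integral_indicator (measurableSet_tail R)]

theorem window_bound (G : ℝ → ℝ) (hGm : Measurable G) (M : ℝ) (hM : ∀ t, |G t| ≤ M)
    {δ R : ℝ} (hδ : 0 < δ) (hR : 0 < R) (y c κ : ℝ)
    (h1 : ∀ t, |y - t| ≤ δ → c ≤ G t) (h2 : ∀ t, c - κ ≤ G t) :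
    c * (∫ v, fej v) - κ * fejTail R ≤ R / δ * ∫ t, G t * fej (R / δ * (y - t)) := by
  have hl : 0 < R / δ := by positivity
  let F : ℝ → ℝ := fun v => c * fej v - κ * {v : ℝ | R < |v|}.indicator fej v
  have hFi : Integrable F :=
    (integrable_fej.const_mul c).sub
      ((integrable_fej.indicator (measurableSet_tail R)).const_mul κ)
  have h3 : ∫ v, F v = c * (∫ v, fej v) - κ * fejTail R := by
    rw [integral_sub (integrable_fej.const_mul c)
      ((integrable_fej.indicator (measurableSet_tail R)).const_mul κ),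
      integral_const_mul, integral_const_mul, fejTail]
  have h4 : ∫ t, F (R / δ * (y - t)) = (R / δ)⁻¹ * ∫ v, F v := by
    rw [integral_sub_left_eq_self (fun t => F (R / δ * t)) volume y,
      Measure.integral_comp_mul_left, abs_of_pos (inv_pos.2 hl), smul_eq_mul]
  have h5 : ∫ t, F (R / δ * (y - t)) ≤ ∫ t, G t * fej (R / δ * (y - t)) := by
    apply integral_mono ((hFi.comp_mul_left' hl.ne').comp_sub_left y)
    · refine Integrable.mono' ((integrable_fej_comp hl y).const_mul M) ?_
        (Eventually.of_forall fun t => ?_)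
      · apply Measurable.aestronglyMeasurable
        have := continuous_fej.measurable
        fun_prop
      · rw [Real.norm_eq_abs, abs_mul, abs_of_nonneg (fej_nonneg _)]
        exact mul_le_mul_of_nonneg_right (hM t) (fej_nonneg _)
    · intro t
      simp only [F]
      by_cases ht : R / δ * (y - t) ∈ {v : ℝ | R < |v|}
      · rw [indicator_of_mem ht, ← sub_mul]
        exact mul_le_mul_of_nonneg_right (h2 t) (fej_nonneg _)
      · rw [indicator_of_notMem ht, mul_zero, sub_zero]
        apply mul_le_mul_of_nonneg_right (h1 t _) (fej_nonneg _)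
        simp only [mem_ofPred_eq, not_lt, abs_mul, abs_of_pos hl] at ht
        rw [div_mul_eq_mul_div, div_le_iff₀ hδ] at ht
        exact le_of_mul_le_mul_left ht hR
  rw [← h3]
  rw [h4, inv_mul_le_iff₀ hl] at h5
  exact h5

theorem tauber (f : ℝ → ℝ) (A M : ℝ) (hfm : Measurable f) (hf0 : ∀ t, 0 ≤ f t)
    (hfM : ∀ t, f t ≤ M) (hmono : Monotone fun t => Real.exp t * f t)
    (h : ∀ l : ℝ, 0 < l →
      Tendsto (fun y => ∫ t in Ioi (0 : ℝ), (f t - A) * fej (l * (y - t))) atTop (𝓝 0)) :
    Tendsto f atTop (𝓝 A) := by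
  set I := ∫ v, fej v with hI
  have hIpos : 0 < I := integral_fej_pos
  have hM0 : 0 ≤ M := (hf0 0).trans (hfM 0)
  set M' := M + |A| with hM'
  have hA1 := le_abs_self A
  have hA2 := neg_abs_le A
  have hA3 := abs_nonneg A
  let G : ℝ → ℝ := (Ioi (0 : ℝ)).indicator fun t => f t - A
  have hGm : Measurable G := (hfm.sub_const A).indicator measurableSet_Ioi
  have hGM : ∀ t, |G t| ≤ M' := by
    intro t
    by_cases ht : t ∈ Ioi (0 : ℝ)
    · simp only [G, indicator_of_mem ht]
      rw [abs_le]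
      constructor <;> linarith [hf0 t, hfM t]
    · simp only [G, indicator_of_notMem ht, abs_zero]
      linarith
  have hE : ∀ l y : ℝ, ∫ t, G t * fej (l * (y - t)) =
      ∫ t in Ioi (0 : ℝ), (f t - A) * fej (l * (y - t)) := by
    intro l y
    rw [← integral_indicator measurableSet_Ioi]
    apply integral_congr_ae
    filter_upwards with t
    by_cases ht : t ∈ Ioi (0 : ℝ)
    · simp only [G, indicator_of_mem ht]
    · simp only [G, indicator_of_notMem ht, zero_mul]
  rw [Metric.tendsto_nhds]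
  intro η hη
  obtain ⟨δ, hδ, hδ1, hδ2⟩ : ∃ δ : ℝ, 0 < δ ∧ Real.exp (2 * δ) * (A + δ) < A + η ∧
      A - η < Real.exp (-(2 * δ)) * (A - δ) := by
    have c1 : Continuous fun δ : ℝ => Real.exp (2 * δ) * (A + δ) := by fun_prop
    have c2 : Continuous fun δ : ℝ => Real.exp (-(2 * δ)) * (A - δ) := by fun_prop
    have e1 := (c1.tendsto 0).eventually (gt_mem_nhds (a := A + η) (by simpa using hη))
    have e2 := (c2.tendsto 0).eventually (lt_mem_nhds (a := A - η) (by simpa using hη))
    have e3 : ∀ᶠ δ : ℝ in 𝓝[>] 0, 0 < δ := self_mem_nhdsWithin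
    obtain ⟨δ, h1, h2, h3⟩ := (e3.and ((e1.and e2).filter_mono nhdsWithin_le_nhds)).exists
    exact ⟨δ, h1, h2, h3⟩
  obtain ⟨R, hR, hRT⟩ : ∃ R : ℝ, 0 < R ∧ 2 * M' * fejTail R < δ / 2 * I := by
    have e1 := (tendsto_fejTail.const_mul (2 * M')).eventually
      (gt_mem_nhds (a := δ / 2 * I) (by simp only [mul_zero]; positivity))
    obtain ⟨R, h1, h2⟩ := ((eventually_gt_atTop 0).and e1).exists
    exact ⟨R, h1, h2⟩
  have hl : 0 < R / δ := by positivity
  have hlim := (h (R / δ) hl).const_mul (R / δ)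
  simp only [mul_zero, ← hE] at hlim
  have hev := (Metric.tendsto_nhds.1 hlim) (δ / 2 * I) (by positivity)
  have hup : ∀ᶠ y in atTop, f (y - δ) < A + η := by
    filter_upwards [hev, eventually_gt_atTop δ] with y hy hyδ
    have hw := window_bound G hGm M' hGM hδ hR y (Real.exp (-(2 * δ)) * f (y - δ) - A) (2 * M')
      (fun t ht => by
        have ht' := abs_le.1 ht
        have ht0 : t ∈ Ioi (0 : ℝ) := by simp only [mem_Ioi]; linarith
        simp only [G, indicator_of_mem ht0]
        have h1 : Real.exp (y - δ) * f (y - δ) ≤ Real.exp t * f t := hmono (by linarith)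
        have h2 : Real.exp t * Real.exp (-(2 * δ)) ≤ Real.exp (y - δ) := by
          rw [← Real.exp_add]; exact Real.exp_le_exp.2 (by linarith)
        have h3 : Real.exp t * (Real.exp (-(2 * δ)) * f (y - δ)) ≤ Real.exp t * f t := by
          calc _ = Real.exp t * Real.exp (-(2 * δ)) * f (y - δ) := by ring
            _ ≤ Real.exp (y - δ) * f (y - δ) := mul_le_mul_of_nonneg_right h2 (hf0 _)
            _ ≤ _ := h1
        linarith [le_of_mul_le_mul_left h3 (Real.exp_pos t)])
      (fun t => by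
        have h1 := (abs_le.1 (hGM t)).1
        have h2 : Real.exp (-(2 * δ)) ≤ 1 := by rw [Real.exp_le_one_iff]; linarith
        have h3 : Real.exp (-(2 * δ)) * f (y - δ) ≤ 1 * M :=
          mul_le_mul h2 (hfM _) (hf0 _) zero_le_one
        linarith)
    rw [Real.dist_eq, sub_zero, abs_lt] at hy
    have h4 : (Real.exp (-(2 * δ)) * f (y - δ) - A) * I < δ * I := by linarith [hy.2]
    have h5 : Real.exp (-(2 * δ)) * f (y - δ) < A + δ := by
      linarith [lt_of_mul_lt_mul_right h4 hIpos.le]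
    have h6 : f (y - δ) = Real.exp (2 * δ) * (Real.exp (-(2 * δ)) * f (y - δ)) := by
      rw [← mul_assoc, ← Real.exp_add]; simp
    rw [h6]
    exact (mul_lt_mul_of_pos_left h5 (Real.exp_pos _)).trans hδ1
  have hlow : ∀ᶠ y in atTop, A - η < f (y + δ) := by
    filter_upwards [hev, eventually_gt_atTop δ] with y hy hyδ
    have hw := window_bound (fun t => -G t) hGm.neg M' (fun t => by rw [abs_neg]; exact hGM t)
      hδ hR y (-(Real.exp (2 * δ) * f (y + δ) - A)) (2 * M')
      (fun t ht => by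
        have ht' := abs_le.1 ht
        have ht0 : t ∈ Ioi (0 : ℝ) := by simp only [mem_Ioi]; linarith
        simp only [G, indicator_of_mem ht0]
        have h1 : Real.exp t * f t ≤ Real.exp (y + δ) * f (y + δ) := hmono (by linarith)
        have h2 : Real.exp (y + δ) ≤ Real.exp t * Real.exp (2 * δ) := by
          rw [← Real.exp_add]; exact Real.exp_le_exp.2 (by linarith)
        have h3 : Real.exp t * f t ≤ Real.exp t * (Real.exp (2 * δ) * f (y + δ)) := by
          calc _ ≤ Real.exp (y + δ) * f (y + δ) := h1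
            _ ≤ Real.exp t * Real.exp (2 * δ) * f (y + δ) :=
              mul_le_mul_of_nonneg_right h2 (hf0 _)
            _ = _ := by ring
        linarith [le_of_mul_le_mul_left h3 (Real.exp_pos t)])
      (fun t => by
        have h1 := (abs_le.1 (hGM t)).2
        have h3 : 0 ≤ Real.exp (2 * δ) * f (y + δ) := mul_nonneg (Real.exp_pos _).le (hf0 _)
        linarith)
    simp only [neg_mul, integral_neg, mul_neg] at hw
    rw [Real.dist_eq, sub_zero, abs_lt] at hy
    have h4 : (-δ) * I < (Real.exp (2 * δ) * f (y + δ) - A) * I := by linarith [hy.1]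
    have h5 : A - δ < Real.exp (2 * δ) * f (y + δ) := by
      linarith [lt_of_mul_lt_mul_right h4 hIpos.le]
    have h6 : f (y + δ) = Real.exp (-(2 * δ)) * (Real.exp (2 * δ) * f (y + δ)) := by
      rw [← mul_assoc, ← Real.exp_add]; simp
    rw [h6]
    exact hδ2.trans (mul_lt_mul_of_pos_left h5 (Real.exp_pos _))
  have hup' := (tendsto_atTop_add_const_right atTop δ tendsto_id).eventually hup
  have hlow' := (tendsto_atTop_add_const_right atTop (-δ) tendsto_id).eventually hlow
  filter_upwards [hup', hlow'] with y h1 h2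
  simp only [id, add_sub_cancel_right, neg_add_cancel_right] at h1 h2
  rw [Real.dist_eq, abs_lt]
  constructor <;> linarith

end Vale.Agent.Lib.NT
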